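import Vale.Agent.P281.H969.TGB.Spec
import Vale.Agent.P281.H176.TG.Card
import Vale.Agent.P281.H485.Gen.Har

/-! P281, project T-GB, block B4 (helper176): the number of sheets of `u` is bounded over the
complement of `f⁻¹(S)`, of the support of `Δ` and of `B`. -/

open Set Filter Metric Vale.Agent.P281 Vale.Agent.P281.H713 Vale.Agent.P272.K
open Vale.Agent.P281.MF Vale.Agent.P281.ISO
open Vale.Agent.P281.H64.Thin Vale.Agent.P281.H64.Gen
open scoped Topology ContDiff Manifold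

noncomputable section

namespace Vale.Agent.P281.H176.TGB

open Vale.Agent.P281.H969.TG Vale.Agent.P281.H969.TGB

/-- **B4** -/
theorem cardB (hG3 : SheetStmt) : CardBStmt := by
  intro n p X₁ X Y _ _ _ _ _ _ _ _ _ _ _ _ _ _ _ u f S Δ B hu hf hfs hS hsub hsnc hB het
  have hs := JB.snc hsnc
  have hfh : ∀ x, HolM (Cm n) (Cm p) f x := fun x => hf x
  -- a point where `f` is submersive
  haveI : Nonempty Y := ⟨f (Classical.arbitrary X)⟩
  obtain ⟨y₀, hy₀⟩ := (IsSmallSet.dense_compl hS).nonempty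
  obtain ⟨x₀, rfl⟩ := hfs y₀
  have hthin : IsSmallSet (Cm n) (f ⁻¹' S) :=
    ⟨hS.1.preimage hf.continuous, preimage_cov hfh ⟨x₀, hsub x₀ hy₀⟩ hS.cov⟩
  have hthin' : IsSmallSet (Cm n) (⋃₀ {D | Δ D ≠ 0}) :=
    IsSmallSet.of_thin (isThinSet_sUnion hs.finite fun D hD => hs.prime D hD)
  have hBs : IsSmallSet (Cm n) B := H485.Gen.IsSmall2.small hB
  obtain ⟨A, hA⟩ : ∃ A : Set X, A = (f ⁻¹' S ∪ ⋃₀ {D | Δ D ≠ 0}) ∪ B := ⟨_, rfl⟩
  have hAs : IsSmallSet (Cm n) A := hA ▸ (hthin.union hthin').union hBs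
  obtain ⟨-, hconn⟩ := H383.Gen.compl n X A hAs
  have hmem : ∀ x, x ∈ Aᶜ ↔ f x ∉ S ∧ x ∉ B ∧ ∀ D, Δ D ≠ 0 → x ∉ D := by
    intro x
    rw [hA]
    constructor
    · intro h
      exact ⟨fun h' => h (Or.inl (Or.inl h')), fun h' => h (Or.inr h'),
        fun D hD hxD => h (Or.inl (Or.inr ⟨D, hD, hxD⟩))⟩
    · rintro ⟨h1, h2, h3⟩ ((h | ⟨D, hD, hxD⟩) | h)
      · exact h1 h
      · exact h3 D hD hxD
      · exact h2 h
  have hloc : ∀ x ∈ Aᶜ, ∃ m : ℕ, ∀ᶠ z in 𝓝 x, (u ⁻¹' {z}).encard = m := by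
    intro x hx
    obtain ⟨h1, h2, h3⟩ := (hmem x).1 hx
    refine TG.eventually_encard hG3 hu fun x₁ hx₁ => het x₁ ?_ ?_ ?_
    · rw [hx₁]
      exact h1
    · rw [hx₁]
      exact h2
    · intro D hD
      rw [hx₁]
      exact h3 D hD
  have hcont : ContinuousOn (fun x => (u ⁻¹' {x}).ncard) Aᶜ := by
    intro x hx
    obtain ⟨m, hm⟩ := hloc x hx
    refine ContinuousAt.continuousWithinAt ?_
    have h1 : (fun x => (u ⁻¹' {x}).ncard) =ᶠ[𝓝 x] fun _ => m := by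
      filter_upwards [hm] with z hz
      rw [ncard, hz]
      simp
    exact continuousAt_const.congr h1.symm
  rcases Aᶜ.eq_empty_or_nonempty with h0 | ⟨x', hx'⟩
  · refine ⟨0, fun x h1 h2 h3 => ?_⟩
    have h4 := (hmem x).2 ⟨h1, h2, h3⟩
    rw [h0] at h4
    exact h4.elim
  · refine ⟨(u ⁻¹' {x'}).ncard, fun x h1 h2 h3 => ?_⟩
    have h4 := (hmem x).2 ⟨h1, h2, h3⟩
    have h5 : (u ⁻¹' {x}).ncard = (u ⁻¹' {x'}).ncard := hconn.constant hcont h4 hx'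
    obtain ⟨m, hm⟩ := hloc x h4
    have h6 : (u ⁻¹' {x}).encard = m := hm.self_of_nhds
    have h7 : (u ⁻¹' {x}).ncard = m := by
      rw [ncard, h6]
      simp
    rw [h6, ← h5, h7]

end Vale.Agent.P281.H176.TGB
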